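import Crest.Agent.R78.Hyper

/-! # R78: from linear lifts to a unitary (Raeburn–Taylor, by Newton iteration) -/

set_option autoImplicit false
set_option linter.unusedSectionVars false
open Filter Topology
open scoped InnerProductSpace

namespace Crest.Agent.R78

open R121 (Al ML Bd Cocycle Cob dd nrm)

universe u
variable {H : Type u} [NormedAddCommGroup H] [InnerProductSpace ℂ H] [CompleteSpace H]

variable {M N : VonNeumannAlgebra H}

section Coch
variable {A : Type*} [NormedRing A] [NormedAlgebra ℂ A]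

/-- A bilinear map as a cochain on lists. -/
noncomputable def rtTwo (φ : A →ₗ[ℂ] A →ₗ[ℂ] A) : List A → A
  | [a, b] => φ a b
  | _ => 0

theorem rt_dd2 (g : List A → A) (a b : A) : dd g [a, b] = a * g [b] - g [a * b] + g [a] * b := by
  rw [R121.dd_cons, R121.pd_cons, R121.pd_single]; abel

theorem rt_dd3 (g : List A → A) (a b c : A) :
    dd g [a, b, c] = a * g [b, c] - g [a * b, c] + g [a, b * c] - g [a, b] * c := by
  rw [R121.dd_cons, R121.pd_cons, R121.pd_cons, R121.pd_single]; abel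

theorem rt_ML2 (φ : A →ₗ[ℂ] A →ₗ[ℂ] A) : ML 2 (rtTwo φ) := by
  refine R121.ML_succ (fun l hl => ?_) fun a => R121.ML_succ (fun l hl => ?_) fun _ =>
    R121.ML_zero _
  · obtain ⟨b, rfl⟩ := List.length_eq_one_iff.1 hl
    exact ⟨fun x y => by simp [rtTwo], fun c x => by simp [rtTwo]⟩
  · obtain rfl := List.length_eq_zero_iff.1 hl
    exact ⟨fun x y => by simp [rtTwo], fun c x => by simp [rtTwo]⟩

theorem rt_ML3 (φ : A →ₗ[ℂ] A →ₗ[ℂ] A) : ML 3 (dd (rtTwo φ)) := by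
  refine R121.ML_succ (fun l hl => ?_) fun a => R121.ML_succ (fun l hl => ?_) fun b =>
    R121.ML_succ (fun l hl => ?_) fun _ => R121.ML_zero _
  · obtain ⟨b, c, rfl⟩ := List.length_eq_two.1 hl
    refine ⟨fun x y => ?_, fun c x => ?_⟩
    · simp only [rt_dd3, rtTwo, add_mul, map_add, LinearMap.add_apply]; abel
    · simp only [rt_dd3, rtTwo, smul_mul_assoc, map_smul, LinearMap.smul_apply, smul_add, smul_sub]
  · obtain ⟨c, rfl⟩ := List.length_eq_one_iff.1 hl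
    refine ⟨fun x y => ?_, fun c x => ?_⟩
    · simp only [rt_dd3, rtTwo, add_mul, mul_add, map_add, LinearMap.add_apply]; abel
    · simp only [rt_dd3, rtTwo, smul_mul_assoc, mul_smul_comm, map_smul, LinearMap.smul_apply,
        smul_add, smul_sub]
  · obtain rfl := List.length_eq_zero_iff.1 hl
    refine ⟨fun x y => ?_, fun c x => ?_⟩
    · simp only [rt_dd3, rtTwo, mul_add, map_add]; abel
    · simp only [rt_dd3, rtTwo, mul_smul_comm, map_smul, smul_add, smul_sub]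

end Coch

/-- An approximate `2`-cocycle is an approximate coboundary (`H² = H³ = 0`). -/
theorem approx_cob (φ : Al N →ₗ[ℂ] Al N →ₗ[ℂ] Al N) {d e : ℝ} (hd : 0 ≤ d) (he : 0 ≤ e)
    (h1 : ∀ a b, ‖φ a b‖ ≤ d * (‖a‖ * ‖b‖))
    (h2 : ∀ a b c, ‖a * φ b c - φ (a * b) c + φ a (b * c) - φ a b * c‖ ≤ e * (‖a‖ * ‖b‖ * ‖c‖)) :
    ∃ ψ : Al N →ₗ[ℂ] Al N, (∀ a, ‖ψ a‖ ≤ 5 * (d + 7 * e) * ‖a‖) ∧
      ∀ a b, ‖a * ψ b - ψ (a * b) + ψ a * b - φ a b‖ ≤ 7 * e * (‖a‖ * ‖b‖) := by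
  obtain ⟨G, hG1, hG2, hG3⟩ := R121.cob_all (k := 2) he (rt_ML3 φ) (fun l hl => by
    obtain ⟨a, b, c, rfl⟩ := List.length_eq_three.1 hl
    simpa only [rt_dd3, rtTwo, R121.nrm_cons, R121.nrm_nil, mul_one, mul_assoc] using h2 a b c)
    fun l _ => R121.dd_dd _ l
  have hG4 : ∀ a b, ‖G [a, b]‖ ≤ 7 * e * (‖a‖ * ‖b‖) := fun a b => by
    have := hG2 [a, b] rfl
    simp only [R121.nrm_cons, R121.nrm_nil, mul_one] at this
    exact this.trans (le_of_eq (by push_cast; ring))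
  obtain ⟨ψ, hψ1, hψ2, hψ3⟩ := R121.cob_all (k := 1) (φ := fun l => rtTwo φ l - G l)
    (c := d + 7 * e) (by positivity) ((rt_ML2 φ).sub hG1) (fun l hl => by
      obtain ⟨a, b, rfl⟩ := List.length_eq_two.1 hl
      simp only [rtTwo, R121.nrm_cons, R121.nrm_nil, mul_one]
      have := norm_sub_le (φ a b) (G [a, b])
      linarith [h1 a b, hG4 a b])
    fun l hl => by rw [R121.dd_sub, hG3 l hl, sub_self]
  refine ⟨(hψ1.first (l := []) rfl).mk', fun a => ?_, fun a b => ?_⟩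
  · have := hψ2 [a] rfl
    simp only [R121.nrm_cons, R121.nrm_nil, mul_one] at this
    exact this.trans (le_of_eq (by push_cast; ring))
  · have := hψ3 [a, b] rfl
    rw [rt_dd2] at this
    simp only [IsLinearMap.mk'_apply, this, rtTwo, sub_sub_cancel_left, norm_neg]
    exact hG4 a b

/-- An approximately multiplicative self-adjoint lift. -/
structure Apx (M : VonNeumannAlgebra H) (Θ : Al N →L[ℂ] Op H) (θ d : ℝ) : Prop where
  mem : ∀ a, Θ a ∈ M
  st : ∀ a, Θ (star a) = star (Θ a)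
  near : ∀ a, ‖Θ a - a‖ ≤ θ * ‖a‖
  mul : ∀ a b, ‖Θ a * Θ b - Θ (a * b)‖ ≤ d * (‖a‖ * ‖b‖)

theorem rt_mul_sub {B : Type*} [NormedRing B] {x x' y y' : B} {s t p q : ℝ} (h1 : ‖x - x'‖ ≤ s)
    (h2 : ‖y - y'‖ ≤ t) (h3 : ‖x'‖ ≤ p) (h4 : ‖y‖ ≤ q) : ‖x * y - x' * y'‖ ≤ s * q + p * t := by
  have e : x * y - x' * y' = (x - x') * y + x' * (y - y') := by noncomm_ring
  rw [e]
  exact norm_add_le_of_le
    ((norm_mul_le _ _).trans (mul_le_mul h1 h4 (norm_nonneg _) ((norm_nonneg _).trans h1)))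
    ((norm_mul_le _ _).trans (mul_le_mul h3 h2 (norm_nonneg _) ((norm_nonneg _).trans h3)))

/-- Solving the linearised equation approximately. -/
theorem Apx.exists_corr (hL : HasLift N M (1 / 300)) {Θ : Al N →L[ℂ] Op H} {d : ℝ}
    (h : Apx M Θ (1 / 300) d) (hd : 0 ≤ d) :
    ∃ χ : Al N →ₗ[ℂ] Op H, (∀ a, χ a ∈ M) ∧ (∀ a, ‖χ a‖ ≤ 7 * d * ‖a‖) ∧
      ∀ a b, ‖Θ a * χ b - χ (a * b) + χ a * Θ b - (Θ a * Θ b - Θ (a * b))‖ ≤
        d / 4 * (‖a‖ * ‖b‖) := by
  obtain ⟨L, hL⟩ := hL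
  obtain ⟨D, hD⟩ : ∃ D : Al N → Al N → Op H, ∀ a b, D a b = Θ a * Θ b - Θ (a * b) :=
    ⟨_, fun _ _ => rfl⟩
  have hDM : ∀ a b, D a b ∈ M := fun a b => hD a b ▸ sub_mem (mul_mem (h.mem a) (h.mem b)) (h.mem _)
  have hDn : ∀ a b, ‖D a b‖ ≤ d * (‖a‖ * ‖b‖) := fun a b => hD a b ▸ h.mul a b
  let φ : Al N →ₗ[ℂ] Al N →ₗ[ℂ] Al N := LinearMap.mk₂ ℂ (fun a b => ⟨L (D a b), (hL _ (hDM a b)).1⟩)
    (fun a a' b => Subtype.ext (by
      change L _ = L _ + L _
      rw [← map_add]; congr 1; simp only [hD, add_mul, map_add]; abel))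
    (fun c a b => Subtype.ext (by
      change L _ = c • L _
      rw [← map_smul]; congr 1; simp only [hD, smul_mul_assoc, map_smul, smul_sub]))
    (fun a b b' => Subtype.ext (by
      change L _ = L _ + L _
      rw [← map_add]; congr 1; simp only [hD, mul_add, map_add]; abel))
    (fun c a b => Subtype.ext (by
      change L _ = c • L _
      rw [← map_smul]; congr 1; simp only [hD, mul_smul_comm, map_smul, smul_sub]))
  have hφ : ∀ a b, ‖(φ a b : Op H) - D a b‖ ≤ d / 300 * (‖a‖ * ‖b‖) := fun a b =>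
    (hL _ (hDM a b)).2.trans (by linarith [hDn a b])
  have nn : ∀ a b : Al N, 0 ≤ ‖a‖ * ‖b‖ := fun a b => by positivity
  have hn : ∀ a : Al N, ‖(a : Op H)‖ ≤ ‖a‖ := fun a => le_rfl
  obtain ⟨ψ, hψ1, hψ2⟩ := approx_cob φ (d := 301 / 300 * d) (e := d / 50) (by positivity)
    (by positivity) (fun a b => by
      have := norm_le_insert' (φ a b : Op H) (D a b)
      change ‖(φ a b : Op H)‖ ≤ _
      linarith [hφ a b, hDn a b]) fun a b c => by
      have e : ((a * φ b c - φ (a * b) c + φ a (b * c) - φ a b * c : Al N) : Op H) =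
          -(Θ a * D b c - a * φ b c) - (φ (a * b) c - D (a * b) c) + (φ a (b * c) - D a (b * c)) -
            (φ a b * c - D a b * Θ c) := by
        simp only [hD, mul_assoc]
        push_cast
        noncomm_ring
      have h1 := rt_mul_sub (h.near a) ((norm_sub_rev _ _).trans_le (hφ b c)) (hn a) (hDn b c)
      have h2 := (hφ (a * b) c).trans (mul_le_mul_of_nonneg_left
        (mul_le_mul_of_nonneg_right (norm_mul_le a b) (norm_nonneg c)) (by positivity))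
      have h3 := (hφ a (b * c)).trans (mul_le_mul_of_nonneg_left
        (mul_le_mul_of_nonneg_left (norm_mul_le b c) (norm_nonneg a)) (by positivity))
      have h4 := rt_mul_sub (hφ a b) ((norm_sub_rev _ _).trans_le (h.near c)) (hDn a b) (hn c)
      change ‖((a * φ b c - φ (a * b) c + φ a (b * c) - φ a b * c : Al N) : Op H)‖ ≤ _
      rw [e]
      refine (norm_sub_le_of_le (norm_add_le_of_le (norm_sub_le_of_le
        ((norm_neg _).trans_le h1) h2) h3) h4).trans (le_of_eq (by ring))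
  have hψ3 : ∀ a, ‖ψ a‖ ≤ 6 * d * ‖a‖ := fun a =>
    (hψ1 a).trans (mul_le_mul_of_nonneg_right (by linarith) (norm_nonneg _))
  have hχ1 : ∀ a, ‖Θ (ψ a) - ψ a‖ ≤ d / 50 * ‖a‖ := fun a =>
    (h.near _).trans (by linarith [hψ3 a])
  have hχ2 : ∀ a, ‖Θ (ψ a)‖ ≤ 7 * d * ‖a‖ := fun a => by
    have := norm_le_insert' (Θ (ψ a)) (ψ a)
    have h0 : 0 ≤ d * ‖a‖ := by positivity
    linarith [hχ1 a, hψ3 a, hn (ψ a)]
  refine ⟨(Θ : Al N →ₗ[ℂ] Op H) ∘ₗ ψ, fun a => h.mem _, hχ2, fun a b => ?_⟩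
  have e : Θ a * Θ (ψ b) - Θ (ψ (a * b)) + Θ (ψ a) * Θ b - D a b =
      (Θ a * Θ (ψ b) - a * ψ b) - (Θ (ψ (a * b)) - ψ (a * b)) - (ψ a * b - Θ (ψ a) * Θ b) +
        ((a * ψ b - ψ (a * b) + ψ a * b - φ a b : Al N) : Op H) + (φ a b - D a b) := by
    push_cast
    abel
  have h1 := rt_mul_sub (h.near a) (hχ1 b) (hn a) (hχ2 b)
  have h2 := (hχ1 (a * b)).trans (mul_le_mul_of_nonneg_left (norm_mul_le a b) (by positivity))
  have h3 := rt_mul_sub ((norm_sub_rev _ _).trans_le (hχ1 a))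
    ((norm_sub_rev _ _).trans_le (h.near b)) (hχ2 a) (hn b)
  have h4 : ‖((a * ψ b - ψ (a * b) + ψ a * b - φ a b : Al N) : Op H)‖ ≤ _ := hψ2 a b
  rw [← hD]
  change ‖Θ a * Θ (ψ b) - Θ (ψ (a * b)) + Θ (ψ a) * Θ b - D a b‖ ≤ _
  rw [e]
  refine (norm_add_le_of_le (norm_add_le_of_le (norm_sub_le_of_le (norm_sub_le_of_le h1 h2) h3)
    h4) (hφ a b)).trans ?_
  have := mul_nonneg hd (nn a b)
  linarith

theorem Apx.mono {Θ : Al N →L[ℂ] Op H} {θ θ' d : ℝ} (h : Apx M Θ θ d) (hθ : θ ≤ θ') :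
    Apx M Θ θ' d :=
  ⟨h.mem, h.st, fun a => (h.near a).trans (mul_le_mul_of_nonneg_right hθ (norm_nonneg _)), h.mul⟩

/-- The self-adjoint part of a bounded linear map. -/
theorem exists_sa_part (χ : Al N →ₗ[ℂ] Op H) {c : ℝ} (h : ∀ a, ‖χ a‖ ≤ c * ‖a‖) :
    ∃ χ' : Al N →L[ℂ] Op H, ∀ a, χ' a = (1 / 2 : ℂ) • (χ a + star (χ (star a))) := by
  refine ⟨LinearMap.mkContinuous
    { toFun := fun a => (1 / 2 : ℂ) • (χ a + star (χ (star a)))
      map_add' := fun a b => by simp only [star_add, map_add, smul_add]; abel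
      map_smul' := fun t a => by
        simp only [star_smul, map_smul, star_star, RingHom.id_apply, ← smul_add]
        rw [smul_comm] } c fun a => ?_, fun a => rfl⟩
  have h1 := h (star a)
  rw [norm_star, ← norm_star] at h1
  have h2 := norm_add_le_of_le (h a) h1
  change ‖(1 / 2 : ℂ) • (χ a + star (χ (star a)))‖ ≤ _
  rw [norm_smul, show ‖(1 / 2 : ℂ)‖ = 1 / 2 by simp]
  linarith

theorem norm_half_le {x y : Op H} {r : ℝ} (hx : ‖x‖ ≤ r) (hy : ‖y‖ ≤ r) :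
    ‖(1 / 2 : ℂ) • (x + star y)‖ ≤ r := by
  rw [← norm_star] at hy
  have h2 := norm_add_le_of_le hx hy
  rw [norm_smul, show ‖(1 / 2 : ℂ)‖ = 1 / 2 by simp]
  linarith

/-- One Newton step. -/
theorem Apx.step (hL : HasLift N M (1 / 300)) {Θ : Al N →L[ℂ] Op H} {θ d : ℝ}
    (h : Apx M Θ θ d) (hθ : θ ≤ 1 / 300) (hd : 0 ≤ d) (hd' : d ≤ 1 / 200) :
    ∃ Θ', Apx M Θ' (θ + 7 * d) (d / 2) ∧ ‖Θ - Θ'‖ ≤ 7 * d := by
  obtain ⟨χ, h1, h2, h3⟩ := (h.mono hθ).exists_corr hL hd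
  obtain ⟨χ', hχ'⟩ := exists_sa_part χ h2
  have h4 : ∀ a, ‖χ' a‖ ≤ 7 * d * ‖a‖ := fun a => by
    rw [hχ']; exact norm_half_le (h2 a) (by simpa using h2 (star a))
  refine ⟨Θ - χ', ⟨fun a => ?_, fun a => ?_, fun a => ?_, fun a b => ?_⟩, ?_⟩
  · rw [sub_apply, hχ']
    exact sub_mem (h.mem a) (vn_smul_mem _ (add_mem (h1 a) (star_mem (h1 _))))
  · rw [sub_apply, sub_apply, h.st, hχ', hχ', star_sub, star_smul, star_add, star_star, star_star,
      add_comm]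
    simp
  · rw [sub_apply, sub_right_comm]
    exact (norm_sub_le_of_le (h.near a) (h4 a)).trans (le_of_eq (by ring))
  · have h5 : ‖Θ a * χ' b - χ' (a * b) + χ' a * Θ b - (Θ a * Θ b - Θ (a * b))‖ ≤
        d / 4 * (‖a‖ * ‖b‖) := by
      have h6 := h3 (star b) (star a)
      rw [norm_star, norm_star, mul_comm ‖b‖] at h6
      convert norm_half_le (h3 a b) h6 using 2
      simp only [hχ', ← star_mul, h.st, star_sub, star_add, star_star, star_mul (χ _),
        star_mul _ (χ _), mul_smul_comm, smul_mul_assoc, mul_add, add_mul, smul_add, smul_sub]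
      module
    have e : (Θ - χ') a * (Θ - χ') b - (Θ - χ') (a * b) =
        χ' a * χ' b - (Θ a * χ' b - χ' (a * b) + χ' a * Θ b - (Θ a * Θ b - Θ (a * b))) := by
      simp only [sub_apply]; noncomm_ring
    have h7 := (norm_mul_le _ _).trans (mul_le_mul (h4 a) (h4 b) (norm_nonneg _) (by positivity))
    have h8 : 0 ≤ d * (‖a‖ * ‖b‖) := by positivity
    rw [e]
    refine (norm_sub_le_of_le h7 h5).trans ?_
    nlinarith
  · rw [sub_sub_cancel]
    exact χ'.opNorm_le_bound (by positivity) h4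

theorem exists_mul_lift {η : ℝ} (h0 : 0 ≤ η) (hη : η ≤ 1 / 20000) (h1 : HasLift M N η)
    (hL : HasLift N M (1 / 300)) : ∃ Θ : Al N →L[ℂ] Op H, Apx M Θ (57 * η) 0 := by
  obtain ⟨L, h1⟩ := h1
  have hb : ∀ a : Al N, ‖L a‖ ≤ (1 + η) * ‖a‖ := fun a => by
    have := norm_le_insert' (L a) a
    have h2 := (h1 a a.2).2
    change _ ≤ (1 + η) * ‖(a : Op H)‖
    linarith
  obtain ⟨Θ₀, hΘ₀⟩ := exists_sa_part (L ∘ₗ N.toStarSubalgebra.subtype.toLinearMap) hb
  have hn : ∀ a : Al N, ‖Θ₀ a - a‖ ≤ η * ‖a‖ := fun a => by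
    have h2 := (h1 _ (star a).2).2
    rw [show ‖((star a : Al N) : Op H)‖ = ‖a‖ from norm_star a] at h2
    refine le_of_eq_of_le (congrArg _ ?_) (norm_half_le (h1 a a.2).2 h2)
    rw [hΘ₀, star_sub, show star ((star a : Al N) : Op H) = a from star_star (a : Op H)]
    change (1 / 2 : ℂ) • (L a + star (L (star a : Al N))) - a = _
    module
  have hA : Apx M Θ₀ η (4 * η) := by
    refine ⟨fun a => ?_, fun a => ?_, hn, fun a b => ?_⟩
    · rw [hΘ₀]
      exact vn_smul_mem _ (add_mem (h1 a a.2).1 (star_mem (h1 _ (star a).2).1))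
    · rw [hΘ₀, hΘ₀, star_smul, star_add, star_star, star_star, add_comm]
      simp
    · have h2 : ‖Θ₀ b‖ ≤ 2 * ‖b‖ := by
        have := norm_le_insert' (Θ₀ b) b
        have h3 : η * ‖b‖ ≤ 1 * ‖b‖ := mul_le_mul_of_nonneg_right (by linarith) (norm_nonneg _)
        have h4 : ‖(b : Op H)‖ = ‖b‖ := rfl
        linarith [hn b]
      have h3 := rt_mul_sub (hn a) (hn b) (le_refl ‖a‖) h2
      have h4 := (hn (a * b)).trans (mul_le_mul_of_nonneg_left (norm_mul_le a b) h0)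
      have e : Θ₀ a * Θ₀ b - Θ₀ (a * b) = (Θ₀ a * Θ₀ b - a * b) - (Θ₀ (a * b) - (a * b : Al N)) := by
        push_cast; abel
      rw [e]
      exact (norm_sub_le_of_le h3 h4).trans (le_of_eq (by ring))
  have st : ∀ (k : ℕ) (Θ : Al N →L[ℂ] Op H), ∃ Θ', Apx M Θ (57 * η - 56 * η / 2 ^ k) (4 * η / 2 ^ k) →
      Apx M Θ' (57 * η - 56 * η / 2 ^ (k + 1)) (4 * η / 2 ^ (k + 1)) ∧
        dist Θ Θ' ≤ 56 * η / 2 / 2 ^ k := fun k Θ => by
    by_cases h : Apx M Θ (57 * η - 56 * η / 2 ^ k) (4 * η / 2 ^ k)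
    · have h2 : η / 2 ^ k ≤ η := div_le_self h0 (one_le_pow₀ one_le_two)
      have h3 : 0 ≤ η / 2 ^ k := by positivity
      obtain ⟨Θ', h4, h5⟩ := h.step hL (by rw [mul_div_assoc]; linarith) (by positivity)
        (by rw [mul_div_assoc]; linarith)
      refine ⟨Θ', fun _ => ⟨?_, ?_⟩⟩
      · convert h4 using 1 <;> ring
      · rw [dist_eq_norm]; convert h5 using 1; ring
    · exact ⟨Θ, fun h' => absurd h' h⟩
  choose f hf using st
  let s : ℕ → (Al N →L[ℂ] Op H) := fun k => Nat.rec Θ₀ f k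
  have hs : ∀ k, Apx M (s k) (57 * η - 56 * η / 2 ^ k) (4 * η / 2 ^ k) := fun k => by
    induction k with
    | zero => change Apx M Θ₀ _ _; convert hA using 1 <;> ring
    | succ k ih => exact (hf k _ ih).1
  obtain ⟨Θ, hΘ⟩ := cauchySeq_tendsto_of_complete
    (cauchySeq_of_le_geometric_two (f := s) fun k => (hf k _ (hs k)).2)
  have hp : ∀ a, Tendsto (fun k => s k a) atTop (𝓝 (Θ a)) := fun a =>
    ((ContinuousLinearMap.apply ℂ (Op H) a).continuous.tendsto Θ).comp hΘ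
  refine ⟨Θ, fun a => (R124.isClosed_vn M).mem_of_tendsto (hp a) (.of_forall fun k => (hs k).mem a),
    fun a => tendsto_nhds_unique (hp (star a)) ?_, fun a => ?_, fun a b => ?_⟩
  · simpa only [(hs _).st] using (hp a).star
  · refine le_of_tendsto' ((hp a).sub_const _).norm fun k => ((hs k).mono ?_).near a
    have : 0 ≤ 56 * η / 2 ^ k := by positivity
    linarith
  · refine le_of_tendsto_of_tendsto' (((hp a).mul (hp b)).sub (hp (a * b))).norm
      (Tendsto.mul_const _ ?_) fun k => (hs k).mul a b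
    simpa [div_eq_mul_inv] using (tendsto_pow_atTop_nhds_zero_of_lt_one (r := (1 / 2 : ℝ))
      (by norm_num) (by norm_num)).const_mul (4 * η)

/-- A near inclusion which is an inclusion in the other direction is an equality. -/
theorem mem_of_near {S T : Submodule ℂ (Op H)} (hT : IsClosed (T : Set (Op H))) (hTS : T ≤ S)
    (h : ∀ x ∈ S, ∃ y ∈ T, ‖x - y‖ ≤ 1 / 2 * ‖x‖) {x : Op H} (hx : x ∈ S) : x ∈ T := by
  have key : ∀ k : ℕ, ∃ y ∈ T, ‖x - y‖ ≤ (1 / 2) ^ k * ‖x‖ := fun k => by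
    induction k with
    | zero => exact ⟨0, zero_mem _, by simp⟩
    | succ k ih =>
      obtain ⟨y, hy, h1⟩ := ih
      obtain ⟨z, hz, h2⟩ := h (x - y) (sub_mem hx (hTS hy))
      refine ⟨y + z, add_mem hy hz, ?_⟩
      rw [← sub_sub, pow_succ]
      linarith
  choose y hy h1 using key
  refine hT.mem_of_tendsto (f := y) (b := atTop) ?_ (.of_forall hy)
  rw [tendsto_iff_norm_sub_tendsto_zero]
  refine squeeze_zero (fun _ => norm_nonneg _) (fun k => (norm_sub_rev _ _).trans_le (h1 k)) ?_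
  simpa using (tendsto_pow_atTop_nhds_zero_of_lt_one (r := (1 / 2 : ℝ)) (by norm_num)
    (by norm_num)).mul_const ‖x‖

/-- **Linear lifts in both directions give a unitary.** -/
theorem exists_unitary_of_lifts {η : ℝ} (h0 : 0 ≤ η) (hη : η ≤ 1 / 10 ^ 8) (h1 : HasLift M N η)
    (h2 : HasLift N M η) : ∃ u ∈ unitary (Op H), ‖u - 1‖ ≤ 2 * 10 ^ 6 * η ∧
      ∀ y, y ∈ N ↔ ∃ x ∈ M, y = u * x * star u := by
  have h2' : HasLift N M (1 / 300) := by
    obtain ⟨L, hL⟩ := h2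
    exact ⟨L, fun y hy => ⟨(hL y hy).1, (hL y hy).2.trans
      (mul_le_mul_of_nonneg_right (by linarith) (norm_nonneg _))⟩⟩
  obtain ⟨Θ, hΘ⟩ := exists_mul_lift h0 (by linarith) h1 h2'
  have hm : ∀ a b, Θ (a * b) = Θ a * Θ b := fun a b => by
    have := hΘ.mul a b
    rw [zero_mul, norm_le_zero_iff, sub_eq_zero] at this
    exact this.symm
  have hone : Θ 1 = 1 := by
    have h3 : ‖1 - Θ 1‖ ≤ 1 / 2 := by
      have h4 := hΘ.near 1
      have h5 : ‖(1 : Al N)‖ ≤ 1 := ContinuousLinearMap.norm_id_le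
      have h6 : 57 * η * ‖(1 : Al N)‖ ≤ 57 * η * 1 := by gcongr
      rw [norm_sub_rev]
      exact h4.trans (by linarith)
    have h4 : (1 - Θ 1) * (1 - Θ 1) = 1 - Θ 1 := by
      rw [mul_sub, mul_one, sub_mul, one_mul, ← hm, mul_one, sub_self, sub_zero]
    have h5 := norm_mul_le (1 - Θ 1) (1 - Θ 1)
    rw [h4] at h5
    have h6 : ‖1 - Θ 1‖ ≤ 0 := by nlinarith [norm_nonneg (1 - Θ 1)]
    exact (sub_eq_zero.1 (norm_le_zero_iff.1 h6)).symm
  let ρ : Al N →⋆ₐ[ℂ] Op H :=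
    { toFun := Θ, map_one' := hone, map_mul' := hm, map_zero' := map_zero Θ,
      map_add' := map_add Θ, map_star' := hΘ.st
      commutes' := fun c => by
        rw [Algebra.algebraMap_eq_smul_one, map_smul, hone, Algebra.algebraMap_eq_smul_one] }
  obtain ⟨Z, hZ, hZ1⟩ := hyper_two ρ N.toStarSubalgebra.subtype (Y := 1) (g := 57 * η)
    (by positivity) fun a => by rw [one_mul, mul_one]; exact hΘ.near a
  rw [norm_sub_rev] at hZ1
  obtain ⟨u, hu, hu1, -, hu2, -⟩ := exists_polar' (one_mem _) (by linarith) hZ1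
  have hu3 : ∀ a : Al N, u * Θ a * star u = a := fun a => by
    have := hu2 (Θ a) a (hZ a) (by rw [← hΘ.st]; exact hZ (star a))
    rw [this, mul_assoc, hu.2, mul_one]
  have hu4 : ‖u - 1‖ ≤ 2 * 10 ^ 6 * η := by
    linarith [norm_sub_le_norm_sub_add_norm_sub u Z 1]
  refine ⟨u, hu, hu4, fun y => ⟨fun hy => ⟨_, hΘ.mem ⟨y, hy⟩, (hu3 ⟨y, hy⟩).symm⟩, ?_⟩⟩
  rintro ⟨x, hx, rfl⟩
  let c : Op H →L[ℂ] Op H := ContinuousLinearMap.mulLeftRight ℂ (Op H) u (star u)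
  have hc : ∀ z, c z = u * z * star u := fun z => ContinuousLinearMap.mulLeftRight_apply _ _ _ _ _
  let T : Submodule ℂ (Op H) := Subalgebra.toSubmodule M.toStarSubalgebra.toSubalgebra ⊓
    (Subalgebra.toSubmodule N.toStarSubalgebra.toSubalgebra).comap (c : Op H →ₗ[ℂ] Op H)
  have hT : IsClosed (T : Set (Op H)) :=
    (R124.isClosed_vn M).inter ((R124.isClosed_vn N).preimage c.continuous)
  obtain ⟨L, hL⟩ := h2
  have := mem_of_near hT inf_le_left (fun z hz => by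
    obtain ⟨h3, h4⟩ := hL z hz
    refine ⟨Θ ⟨L z, h3⟩, ⟨hΘ.mem _, ?_⟩, ?_⟩
    · change c _ ∈ N
      rw [hc, hu3]; exact h3
    · have h5 : ‖Θ ⟨L z, h3⟩ - L z‖ ≤ 57 * η * ‖L z‖ := hΘ.near ⟨L z, h3⟩
      have h6 := norm_le_insert' (L z) z
      have h7 := norm_sub_le_norm_sub_add_norm_sub z (L z) (Θ ⟨L z, h3⟩)
      rw [norm_sub_rev z (L z), norm_sub_rev (L z) (Θ _)] at h7
      have h8 : η * ‖z‖ ≤ 1 / 10 ^ 8 * ‖z‖ := by gcongr
      have h9 : η * ‖L z‖ ≤ 1 / 10 ^ 8 * ‖L z‖ := by gcongr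
      linarith [norm_nonneg z]) hx
  rw [← hc]; exact this.2

end Crest.Agent.R78
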